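import Crest.Agent.R163.Q3.D.S1.P0_0
import Crest.Agent.R163.Q3.D.S1.P0_1

set_option autoImplicit false
set_option maxRecDepth 100000
set_option linter.all false
set_option Elab.async false

namespace Crest.Agent.R163.S1

theorem o0_7 : Ok par f7 Box3.unit C0 :=
  (Ok.part 13925100004336917392247741758846642081404239915560102319132366175274309706796014318346239 p0_7_13 (Ok.split 0 (Ok.part 6682952903909441334479005705470634032977148973076109163503876200359504515 p0_7_2 (Ok.split 1 p0_7_0 p0_7_1)) (Ok.part 14134776518226568545148758066630529320290137814752863080715790794697736447 p0_7_12 (Ok.split 1 p0_7_11 (Ok.part 535195901019396299867017041849887588127605060 p0_7_10 (Ok.split 0 (Ok.part 214312853050137810994327362227333120 p0_7_7 (Ok.split 1 p0_7_6 (Ok.part 859130387264270083562106257417 p0_7_5 (Ok.split 0 p0_7_3 p0_7_4)))) (Ok.part 332306998946228968225951765027683337 p0_7_8 p0_7_9)))))))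
theorem o0_6 : Ok par f6 Box3.unit C0 :=
  (Ok.part 3853564719287812774586670346692719568734056679328847711870258831892832518700785663 p0_6_19 (Ok.split 1 (Ok.part 39492265105081016707871855950051632283115106321099605364523400263 p0_6_7 (Ok.split 0 p0_6_6 (Ok.part 98075717338117 p0_6_5 (Ok.split 1 p0_6_4 (Ok.part 3221225713 p0_6_3 (Ok.split 0 p0_6_2 (Ok.part 130553318 p0_6_0 p0_6_1))))))) (Ok.part 151386795899853283455399296035962101100583215118477265971535421116 p0_6_18 (Ok.split 0 p0_6_17 (Ok.part 21006163036471332530015988888077129156040427176984579 p0_6_16 (Ok.split 1 (Ok.part 21778072781103408007175875996273931714549 p0_6_12 (Ok.split 0 p0_6_11 (Ok.part 2475823995857301560583258113 p0_6_10 (Ok.split 1 p0_6_8 p0_6_9)))) (Ok.part 730750815943171754546900569336094551514241056927 p0_6_15 (Ok.split 0 p0_6_13 p0_6_14))))))))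
theorem o0_5 : Ok par f5 Box3.unit C0 :=
  p0_5_0
theorem o0_4 : Ok par f4 Box3.unit C0 :=
  (Ok.part 254505166232592450807757250415093707609719065876082088757182431352041576195557156483041151 p0_4_4 (Ok.split 1 p0_4_3 (Ok.part 100694847 p0_4_2 (Ok.split 0 p0_4_0 p0_4_1))))
theorem o0_3 : Ok par f3 Box3.unit C0 :=
  (Ok.part 254629011374587704351099159512031652910333626395188191749982373141544534850526552006852175 p0_3_0 p0_3_1)
theorem o0_2 : Ok par f2 Box3.unit C0 :=
  (Ok.part 3978604921948861005981731534066372970168480032005836903585880173218952730987741063329153 p0_2_6 (Ok.split 0 (Ok.part 2403210419968472322720672069895211430318604141290766794746 p0_2_4 (Ok.split 0 (Ok.part 1361129467683753853853489141010957336703 p0_2_0 p0_2_1) (Ok.part 598214907527376381098038314357558869951 p0_2_2 p0_2_3))) p0_2_5))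
theorem o0_1 : Ok par f1 Box3.unit C0 :=
  p0_1_0
theorem o0_0 : Ok par f0 Box3.unit C0 :=
  (Ok.part 254629497041801714526582360469628019651687203141316107229164826271343229715076290527100927 p0_0_2 (Ok.split 0 p0_0_0 p0_0_1))

theorem pt0 : PtAll par C0 :=
  PtAll.of_okD hw (OkD.cover [f0.dom,f1.dom,f2.dom,f3.dom,f4.dom,f5.dom,f6.dom,f7.dom]
    (.split 0 (.split 0 (.leaf 0) (.split 1 (.leaf 1) (.leaf 2))) (.split 1 (.split 0 (.leaf 3) (.leaf 4)) (.split 0 (.leaf 5) (.split 1 (.leaf 6) (.leaf 7)))))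
    (by decide +kernel)
    (List.forall_mem_cons.2 ⟨OkD.of_ok o0_0, (List.forall_mem_cons.2 ⟨OkD.of_ok o0_1, (List.forall_mem_cons.2 ⟨OkD.of_ok o0_2, (List.forall_mem_cons.2 ⟨OkD.of_ok o0_3, (List.forall_mem_cons.2 ⟨OkD.of_ok o0_4, (List.forall_mem_cons.2 ⟨OkD.of_ok o0_5, (List.forall_mem_cons.2 ⟨OkD.of_ok o0_6, (List.forall_mem_cons.2 ⟨OkD.of_ok o0_7, (fun _ h => nomatch h)⟩)⟩)⟩)⟩)⟩)⟩)⟩)⟩))

end Crest.Agent.R163.S1
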