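import Crest.Agent.R163.Q3.D.S1.T0_0
import Crest.Agent.R163.Q3.D.S1.M0
import Crest.Agent.R163.Q3.D.S1.T1_0
import Crest.Agent.R163.Q3.D.S1.M1

set_option autoImplicit false
set_option maxRecDepth 100000
set_option linter.all false
set_option Elab.async false

namespace Crest.Agent.R163.S1

theorem Inf.cast {a b : Box} (h : Inf par a) (e : Box.beq a b = true) : Inf par b :=
  Box.eq_of_beq e ▸ h

theorem n54 : Inf par b54_1 :=
  Inf.empty (by decide +kernel)
theorem n54_1 : Inf par a54_1 :=
  Inf.steps hw _ b54_1 s54_1 c54_1 pt1.right.right.right.right.right.right.right.right.right.right.right.right.right.right.right.right.right.right.right.right.right n54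
theorem n54_0 : Inf par a54_0 :=
  Inf.steps hw _ b54_0 s54_0 c54_0 pt1.right.right.right.right.right.right.right.right.right.right.right.right.right.right.right.right.right.right.right.right.left (Inf.cast n54_1 (by decide +kernel))
theorem n53 : Inf par b53_0 :=
  Inf.empty (by decide +kernel)
theorem n53_0 : Inf par a53_0 :=
  Inf.steps hw _ b53_0 s53_0 c53_0 pt1.right.right.right.right.right.right.right.right.right.right.right.right.right.right.right.right.right.right.right.left n53
theorem n52 : Inf par b52_0 :=
  Inf.empty (by decide +kernel)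
theorem n52_0 : Inf par a52_0 :=
  Inf.steps hw _ b52_0 s52_0 c52_0 pt1.right.right.right.right.right.right.right.right.right.right.right.right.right.right.right.right.right.right.left n52
theorem n51 : Inf par b51_0 :=
  Inf.spG 7 ⟨509322630,0,0⟩ (Inf.cast n52_0 (by decide +kernel)) (Inf.cast n53_0 (by decide +kernel))
theorem n51_0 : Inf par a51_0 :=
  Inf.steps hw _ b51_0 s51_0 c51_0 pt1.right.right.right.right.right.right.right.right.right.right.right.right.right.right.right.right.right.left n51
theorem n50 : Inf par b50_0 :=
  Inf.empty (by decide +kernel)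
theorem n50_0 : Inf par a50_0 :=
  Inf.steps hw _ b50_0 s50_0 c50_0 pt1.right.right.right.right.right.right.right.right.right.right.right.right.right.right.right.right.left n50
theorem n49 : Inf par b49_0 :=
  Inf.empty (by decide +kernel)
theorem n49_0 : Inf par a49_0 :=
  Inf.steps hw _ b49_0 s49_0 c49_0 pt1.right.right.right.right.right.right.right.right.right.right.right.right.right.right.right.left n49
theorem n48 : Inf par b48_0 :=
  Inf.spG 7 ⟨400182066,0,0⟩ (Inf.cast n49_0 (by decide +kernel)) (Inf.cast n50_0 (by decide +kernel))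
theorem n48_0 : Inf par a48_0 :=
  Inf.steps hw _ b48_0 s48_0 c48_0 pt1.right.right.right.right.right.right.right.right.right.right.right.right.right.right.left n48
theorem n47 : Inf par b47_0 :=
  Inf.empty (by decide +kernel)
theorem n47_0 : Inf par a47_0 :=
  Inf.steps hw _ b47_0 s47_0 c47_0 pt1.right.right.right.right.right.right.right.right.right.right.right.right.right.left n47
theorem n46 : Inf par b46_0 :=
  Inf.empty (by decide +kernel)
theorem n46_0 : Inf par a46_0 :=
  Inf.steps hw _ b46_0 s46_0 c46_0 pt1.right.right.right.right.right.right.right.right.right.right.right.right.left n46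
theorem n45 : Inf par b45_0 :=
  Inf.spG 6 ⟨309564105,0,0⟩ (Inf.cast n46_0 (by decide +kernel)) (Inf.cast n47_0 (by decide +kernel))
theorem n45_0 : Inf par a45_0 :=
  Inf.steps hw _ b45_0 s45_0 c45_0 pt1.right.right.right.right.right.right.right.right.right.right.right.left n45
theorem n44 : Inf par b44_0 :=
  Inf.spG 7 ⟨363801878,0,0⟩ (Inf.cast n45_0 (by decide +kernel)) (Inf.cast n48_0 (by decide +kernel))
theorem n44_0 : Inf par a44_0 :=
  Inf.steps hw _ b44_0 s44_0 c44_0 pt1.right.right.right.right.right.right.right.right.right.right.left n44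
theorem n43 : Inf par b43_0 :=
  Inf.spG 7 ⟨436562254,0,0⟩ (Inf.cast n44_0 (by decide +kernel)) (Inf.cast n51_0 (by decide +kernel))
theorem n43_0 : Inf par a43_0 :=
  Inf.steps hw _ b43_0 s43_0 c43_0 pt1.right.right.right.right.right.right.right.right.right.left n43
theorem n42 : Inf par b42_0 :=
  Inf.empty (by decide +kernel)
theorem n42_0 : Inf par a42_0 :=
  Inf.steps hw _ b42_0 s42_0 c42_0 pt1.right.right.right.right.right.right.right.right.left n42
theorem n41 : Inf par b41_0 :=
  Inf.empty (by decide +kernel)
theorem n41_0 : Inf par a41_0 :=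
  Inf.steps hw _ b41_0 s41_0 c41_0 pt1.right.right.right.right.right.right.right.left n41
theorem n40 : Inf par b40_0 :=
  Inf.spG 7 ⟨272851409,0,0⟩ (Inf.cast n41_0 (by decide +kernel)) (Inf.cast n42_0 (by decide +kernel))
theorem n40_0 : Inf par a40_0 :=
  Inf.steps hw _ b40_0 s40_0 c40_0 pt1.right.right.right.right.right.right.left n40
theorem n39 : Inf par b39_0 :=
  Inf.empty (by decide +kernel)
theorem n39_0 : Inf par a39_0 :=
  Inf.steps hw _ b39_0 s39_0 c39_0 pt1.right.right.right.right.right.left n39
theorem n38 : Inf par b38_0 :=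
  Inf.empty (by decide +kernel)
theorem n38_0 : Inf par a38_0 :=
  Inf.steps hw _ b38_0 s38_0 c38_0 pt1.right.right.right.right.left n38
theorem n37 : Inf par b37_0 :=
  Inf.spG 7 ⟨236471221,0,0⟩ (Inf.cast n38_0 (by decide +kernel)) (Inf.cast n39_0 (by decide +kernel))
theorem n37_0 : Inf par a37_0 :=
  Inf.steps hw _ b37_0 s37_0 c37_0 pt1.right.right.right.left n37
theorem n36 : Inf par b36_0 :=
  Inf.spG 7 ⟨254661315,0,0⟩ (Inf.cast n37_0 (by decide +kernel)) (Inf.cast n40_0 (by decide +kernel))
theorem n36_0 : Inf par a36_0 :=
  Inf.steps hw _ b36_0 s36_0 c36_0 pt1.right.right.left n36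
theorem n35 : Inf par b35_0 :=
  Inf.empty (by decide +kernel)
theorem n35_0 : Inf par a35_0 :=
  Inf.steps hw _ b35_0 s35_0 c35_0 pt1.right.left n35
theorem n34 : Inf par b34_0 :=
  Inf.empty (by decide +kernel)
theorem n34_0 : Inf par a34_0 :=
  Inf.steps hw _ b34_0 s34_0 c34_0 pt1.left n34
theorem n33 : Inf par b33_0 :=
  Inf.spG 6 ⟨190570652,0,0⟩ (Inf.cast n34_0 (by decide +kernel)) (Inf.cast n35_0 (by decide +kernel))
theorem n33_0 : Inf par a33_0 :=
  Inf.steps hw _ b33_0 s33_0 c33_0 pt0.right.right.right.right.right.right.right.right.right.right.right.right.right.right.right.right.right.right.right.right.right.right.right.right.right.right.right.right.right.right.right.right.right n33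
theorem n32 : Inf par b32_0 :=
  Inf.empty (by decide +kernel)
theorem n32_0 : Inf par a32_0 :=
  Inf.steps hw _ b32_0 s32_0 c32_0 pt0.right.right.right.right.right.right.right.right.right.right.right.right.right.right.right.right.right.right.right.right.right.right.right.right.right.right.right.right.right.right.right.right.left n32
theorem n31 : Inf par b31_0 :=
  Inf.empty (by decide +kernel)
theorem n31_0 : Inf par a31_0 :=
  Inf.steps hw _ b31_0 s31_0 c31_0 pt0.right.right.right.right.right.right.right.right.right.right.right.right.right.right.right.right.right.right.right.right.right.right.right.right.right.right.right.right.right.right.right.left n31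
theorem n30 : Inf par b30_0 :=
  Inf.empty (by decide +kernel)
theorem n30_0 : Inf par a30_0 :=
  Inf.steps hw _ b30_0 s30_0 c30_0 pt0.right.right.right.right.right.right.right.right.right.right.right.right.right.right.right.right.right.right.right.right.right.right.right.right.right.right.right.right.right.right.left n30
theorem n29 : Inf par b29_0 :=
  Inf.spG 7 ⟨153609477,0,0⟩ (Inf.cast n30_0 (by decide +kernel)) (Inf.cast n31_0 (by decide +kernel))
theorem n29_0 : Inf par a29_0 :=
  Inf.steps hw _ b29_0 s29_0 c29_0 pt0.right.right.right.right.right.right.right.right.right.right.right.right.right.right.right.right.right.right.right.right.right.right.right.right.right.right.right.right.right.left n29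
theorem n28 : Inf par b28_0 :=
  Inf.spG 6 ⟨155175144,0,0⟩ (Inf.cast n29_0 (by decide +kernel)) (Inf.cast n32_0 (by decide +kernel))
theorem n28_0 : Inf par a28_0 :=
  Inf.steps hw _ b28_0 s28_0 c28_0 pt0.right.right.right.right.right.right.right.right.right.right.right.right.right.right.right.right.right.right.right.right.right.right.right.right.right.right.right.right.left n28
theorem n27 : Inf par b27_0 :=
  Inf.spG 7 ⟨181900939,0,0⟩ (Inf.cast n28_0 (by decide +kernel)) (Inf.cast n33_0 (by decide +kernel))
theorem n27_0 : Inf par a27_0 :=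
  Inf.steps hw _ b27_0 s27_0 c27_0 pt0.right.right.right.right.right.right.right.right.right.right.right.right.right.right.right.right.right.right.right.right.right.right.right.right.right.right.right.left n27
theorem n26 : Inf par b26_0 :=
  Inf.spG 7 ⟨218281127,0,0⟩ (Inf.cast n27_0 (by decide +kernel)) (Inf.cast n36_0 (by decide +kernel))
theorem n26_0 : Inf par a26_0 :=
  Inf.steps hw _ b26_0 s26_0 c26_0 pt0.right.right.right.right.right.right.right.right.right.right.right.right.right.right.right.right.right.right.right.right.right.right.right.right.right.right.left n26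
theorem n25 : Inf par b25_0 :=
  Inf.empty (by decide +kernel)
theorem n25_0 : Inf par a25_0 :=
  Inf.steps hw _ b25_0 s25_0 c25_0 pt0.right.right.right.right.right.right.right.right.right.right.right.right.right.right.right.right.right.right.right.right.right.right.right.right.right.left n25
theorem n24 : Inf par b24_0 :=
  Inf.empty (by decide +kernel)
theorem n24_0 : Inf par a24_0 :=
  Inf.steps hw _ b24_0 s24_0 c24_0 pt0.right.right.right.right.right.right.right.right.right.right.right.right.right.right.right.right.right.right.right.right.right.right.right.right.left n24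
theorem n23 : Inf par b23_0 :=
  Inf.spG 7 ⟨133633799,0,0⟩ (Inf.cast n24_0 (by decide +kernel)) (Inf.cast n25_0 (by decide +kernel))
theorem n23_0 : Inf par a23_0 :=
  Inf.steps hw _ b23_0 s23_0 c23_0 pt0.right.right.right.right.right.right.right.right.right.right.right.right.right.right.right.right.right.right.right.right.right.right.right.left n23
theorem n22 : Inf par b22_0 :=
  Inf.empty (by decide +kernel)
theorem n22_0 : Inf par a22_0 :=
  Inf.steps hw _ b22_0 s22_0 c22_0 pt0.right.right.right.right.right.right.right.right.right.right.right.right.right.right.right.right.right.right.right.right.right.right.left n22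
theorem n21 : Inf par b21_0 :=
  Inf.empty (by decide +kernel)
theorem n21_0 : Inf par a21_0 :=
  Inf.steps hw _ b21_0 s21_0 c21_0 pt0.right.right.right.right.right.right.right.right.right.right.right.right.right.right.right.right.right.right.right.right.right.left n21
theorem n20 : Inf par b20_0 :=
  Inf.spG 7 ⟨108598136,0,0⟩ (Inf.cast n21_0 (by decide +kernel)) (Inf.cast n22_0 (by decide +kernel))
theorem n20_0 : Inf par a20_0 :=
  Inf.steps hw _ b20_0 s20_0 c20_0 pt0.right.right.right.right.right.right.right.right.right.right.right.right.right.right.right.right.right.right.right.right.left n20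
theorem n19 : Inf par b19_0 :=
  Inf.spG 6 ⟨115225396,0,0⟩ (Inf.cast n20_0 (by decide +kernel)) (Inf.cast n23_0 (by decide +kernel))
theorem n19_0 : Inf par a19_0 :=
  Inf.steps hw _ b19_0 s19_0 c19_0 pt0.right.right.right.right.right.right.right.right.right.right.right.right.right.right.right.right.right.right.right.left n19
theorem n18 : Inf par b18_0 :=
  Inf.empty (by decide +kernel)
theorem n18_0 : Inf par a18_0 :=
  Inf.steps hw _ b18_0 s18_0 c18_0 pt0.right.right.right.right.right.right.right.right.right.right.right.right.right.right.right.right.right.right.left n18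
theorem n17 : Inf par b17_0 :=
  Inf.empty (by decide +kernel)
theorem n17_0 : Inf par a17_0 :=
  Inf.steps hw _ b17_0 s17_0 c17_0 pt0.right.right.right.right.right.right.right.right.right.right.right.right.right.right.right.right.right.left n17
theorem n16 : Inf par b16_0 :=
  Inf.spG 6 ⟨86678618,0,0⟩ (Inf.cast n17_0 (by decide +kernel)) (Inf.cast n18_0 (by decide +kernel))
theorem n16_0 : Inf par a16_0 :=
  Inf.steps hw _ b16_0 s16_0 c16_0 pt0.right.right.right.right.right.right.right.right.right.right.right.right.right.right.right.right.left n16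
theorem n15 : Inf par b15_0 :=
  Inf.empty (by decide +kernel)
theorem n15_0 : Inf par a15_0 :=
  Inf.steps hw _ b15_0 s15_0 c15_0 pt0.right.right.right.right.right.right.right.right.right.right.right.right.right.right.right.left n15
theorem n14 : Inf par b14_0 :=
  Inf.empty (by decide +kernel)
theorem n14_0 : Inf par a14_0 :=
  Inf.steps hw _ b14_0 s14_0 c14_0 pt0.right.right.right.right.right.right.right.right.right.right.right.right.right.right.left n14
theorem n13 : Inf par b13_0 :=
  Inf.spG 6 ⟨73944492,0,0⟩ (Inf.cast n14_0 (by decide +kernel)) (Inf.cast n15_0 (by decide +kernel))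
theorem n13_0 : Inf par a13_0 :=
  Inf.steps hw _ b13_0 s13_0 c13_0 pt0.right.right.right.right.right.right.right.right.right.right.right.right.right.left n13
theorem n12 : Inf par b12_0 :=
  Inf.spG 7 ⟨84535443,0,0⟩ (Inf.cast n13_0 (by decide +kernel)) (Inf.cast n16_0 (by decide +kernel))
theorem n12_0 : Inf par a12_0 :=
  Inf.steps hw _ b12_0 s12_0 c12_0 pt0.right.right.right.right.right.right.right.right.right.right.right.right.left n12
theorem n11 : Inf par b11_0 :=
  Inf.empty (by decide +kernel)
theorem n11_0 : Inf par a11_0 :=
  Inf.steps hw _ b11_0 s11_0 c11_0 pt0.right.right.right.right.right.right.right.right.right.right.right.left n11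
theorem n10 : Inf par b10_0 :=
  Inf.empty (by decide +kernel)
theorem n10_0 : Inf par a10_0 :=
  Inf.steps hw _ b10_0 s10_0 c10_0 pt0.right.right.right.right.right.right.right.right.right.right.left n10
theorem n9 : Inf par b9_0 :=
  Inf.spG 6 ⟨63278351,0,0⟩ (Inf.cast n10_0 (by decide +kernel)) (Inf.cast n11_0 (by decide +kernel))
theorem n9_0 : Inf par a9_0 :=
  Inf.steps hw _ b9_0 s9_0 c9_0 pt0.right.right.right.right.right.right.right.right.right.left n9
theorem n8 : Inf par b8_0 :=
  Inf.empty (by decide +kernel)
theorem n8_0 : Inf par a8_0 :=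
  Inf.steps hw _ b8_0 s8_0 c8_0 pt0.right.right.right.right.right.right.right.right.left n8
theorem n7 : Inf par b7_0 :=
  Inf.empty (by decide +kernel)
theorem n7_0 : Inf par a7_0 :=
  Inf.steps hw _ b7_0 s7_0 c7_0 pt0.right.right.right.right.right.right.right.left n7
theorem n6 : Inf par b6_0 :=
  Inf.spG 6 ⟨50468195,0,0⟩ (Inf.cast n7_0 (by decide +kernel)) (Inf.cast n8_0 (by decide +kernel))
theorem n6_0 : Inf par a6_0 :=
  Inf.steps hw _ b6_0 s6_0 c6_0 pt0.right.right.right.right.right.right.left n6
theorem n5 : Inf par b5_0 :=
  Inf.spG 7 ⟨59673664,0,0⟩ (Inf.cast n6_0 (by decide +kernel)) (Inf.cast n9_0 (by decide +kernel))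
theorem n5_0 : Inf par a5_0 :=
  Inf.steps hw _ b5_0 s5_0 c5_0 pt0.right.right.right.right.right.left n5
theorem n4 : Inf par b4_0 :=
  Inf.spG 6 ⟨68517517,0,0⟩ (Inf.cast n5_0 (by decide +kernel)) (Inf.cast n12_0 (by decide +kernel))
theorem n4_0 : Inf par a4_0 :=
  Inf.steps hw _ b4_0 s4_0 c4_0 pt0.right.right.right.right.left n4
theorem n3 : Inf par b3_0 :=
  Inf.spG 7 ⟨96596726,0,0⟩ (Inf.cast n4_0 (by decide +kernel)) (Inf.cast n19_0 (by decide +kernel))
theorem n3_0 : Inf par a3_0 :=
  Inf.steps hw _ b3_0 s3_0 c3_0 pt0.right.right.right.left n3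
theorem n2 : Inf par b2_0 :=
  Inf.spG 7 ⟨145520751,0,0⟩ (Inf.cast n3_0 (by decide +kernel)) (Inf.cast n26_0 (by decide +kernel))
theorem n2_0 : Inf par a2_0 :=
  Inf.steps hw _ b2_0 s2_0 c2_0 pt0.right.right.left n2
theorem n1 : Inf par b1_0 :=
  Inf.spG 7 ⟨291041503,0,0⟩ (Inf.cast n2_0 (by decide +kernel)) (Inf.cast n43_0 (by decide +kernel))
theorem n1_0 : Inf par a1_0 :=
  Inf.steps hw _ b1_0 s1_0 c1_0 pt0.right.left n1
theorem n0 : Inf par b0_0 :=
  Inf.spG 4 ⟨463756739,0,0⟩ (Inf.cast n1_0 (by decide +kernel)) (Inf.cast n54_0 (by decide +kernel))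
theorem n0_0 : Inf par a0_0 :=
  Inf.steps hw _ b0_0 s0_0 c0_0 pt0.left n0

theorem main : Inf par (box0 par 1229 16384) :=
  Inf.cast n0_0 (by decide +kernel)

end Crest.Agent.R163.S1
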