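import Crest.Agent.R163.Q3.D.S1.S0
import Crest.Agent.R163.Q3.D.S1.H

set_option autoImplicit false
set_option maxRecDepth 100000
set_option linter.all false
set_option Elab.async false

namespace Crest.Agent.R163.S1

theorem p0_0_0 : Ok par f0 (Box3.unit.l 0) (selB 0 C0 254629497041801714526582360469628019651687203141316107229164826271343229715076290527100927) :=
  Ok.run hw hf0 ⟨415,25,25,1,10⟩ 59
    (.part 265287103 (.chk false 0) (.split 0 (.chk false 0) (.part 26 (.chk false 0) (.split 1 (.chk false 0) (.split 0 (.part 2 (.chk false 0) (.split 1 (.chk false 0) (.split 0 (.chk false 0) (.chk false 0)))) (.chk false 0))))))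
    (by decide +kernel)

theorem p0_0_1 : Ok par f0 (Box3.unit.r 0) (selB 0 C0 254629497041801714526582360469628019651687203141316107229164826271343229715076290527100927) :=
  Ok.run hw hf0 ⟨518,25,25,1,10⟩ 59
    (.part 259656264 (.chk false 0) (.split 1 (.chk false 0) (.split 0 (.part 31741 (.chk false 0) (.split 1 (.chk false 0) (.split 0 (.chk false 0) (.chk false 0)))) (.part 31751 (.chk false 0) (.split 1 (.chk false 0) (.split 1 (.chk false 0) (.split 0 (.part 123 (.chk false 0) (.split 1 (.chk false 0) (.split 0 (.split 1 (.chk false 0) (.split 0 (.chk false 0) (.chk false 0))) (.chk false 0)))) (.part 78 (.chk false 0) (.split 1 (.chk false 0) (.split 0 (.chk false 0) (.chk false 0)))))))))))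
    (by decide +kernel)

theorem p0_0_2 : Ok par f0 Box3.unit (selB 1 C0 254629497041801714526582360469628019651687203141316107229164826271343229715076290527100927) :=
  Ok.run hw hf0 ⟨239,25,25,1,10⟩ 59
    (.chk false 0)
    (by decide +kernel)

theorem p0_1_0 : Ok par f1 Box3.unit C0 :=
  Ok.run hw hf1 ⟨370,25,25,1,10⟩ 59
    (.part 254629253476393228587583491041455875899439098360465144823631200732739642218274005530439679 (.chk false 0) (.split 0 (.chk false 0) (.part 41059 (.chk false 0) (.split 0 (.part 15 (.chk false 0) (.split 1 (.part 56 (.chk false 0) (.split 0 (.chk false 0) (.chk false 0))) (.part 33 (.chk false 0) (.split 0 (.chk false 0) (.chk false 0))))) (.part 1017 (.chk false 0) (.split 1 (.split 0 (.chk false 0) (.chk false 0)) (.chk false 0)))))))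
    (by decide +kernel)

theorem p0_2_0 : Ok par f2 ((Box3.unit.l 0).l 0) (selB 1 (selB 0 (selB 0 C0 3978604921948861005981731534066372970168480032005836903585880173218952730987741063329153) 2403210419968472322720672069895211430318604141290766794746) 1361129467683753853853489141010957336703) :=
  Ok.run hw hf2 ⟨306,25,25,1,10⟩ 59
    (.chk false 0)
    (by decide +kernel)

theorem p0_2_1 : Ok par f2 ((Box3.unit.l 0).l 0) (selB 0 (selB 0 (selB 0 C0 3978604921948861005981731534066372970168480032005836903585880173218952730987741063329153) 2403210419968472322720672069895211430318604141290766794746) 1361129467683753853853489141010957336703) :=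
  Ok.run hw hf2 ⟨546,25,25,1,10⟩ 59
    (.split 1 (.chk false 0) (.part 262736 (.chk false 0) (.split 1 (.chk false 0) (.split 0 (.part 129015 (.chk false 0) (.split 1 (.chk false 0) (.split 0 (.chk false 0) (.part 2 (.chk false 0) (.split 1 (.chk false 0) (.split 0 (.chk false 0) (.split 1 (.chk false 0) (.split 0 (.chk false 0) (.chk false 0))))))))) (.part 121852 (.chk false 0) (.split 1 (.chk false 0) (.split 0 (.chk false 0) (.part 11 (.chk false 0) (.split 1 (.chk false 0) (.split 0 (.chk false 0) (.chk false 0)))))))))))
    (by decide +kernel)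

theorem p0_2_2 : Ok par f2 ((Box3.unit.l 0).r 0) (selB 1 (selB 0 (selB 0 C0 3978604921948861005981731534066372970168480032005836903585880173218952730987741063329153) 2403210419968472322720672069895211430318604141290766794746) 598214907527376381098038314357558869951) :=
  Ok.run hw hf2 ⟨294,25,25,1,10⟩ 59
    (.chk false 0)
    (by decide +kernel)

theorem p0_2_3 : Ok par f2 ((Box3.unit.l 0).r 0) (selB 0 (selB 0 (selB 0 C0 3978604921948861005981731534066372970168480032005836903585880173218952730987741063329153) 2403210419968472322720672069895211430318604141290766794746) 598214907527376381098038314357558869951) :=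
  Ok.run hw hf2 ⟨441,25,25,1,10⟩ 59
    (.split 1 (.chk false 0) (.part 2228959286918737832181760 (.chk false 0) (.split 0 (.part 9444732965739289887961 (.chk false 0) (.split 1 (.chk false 0) (.part 257 (.chk false 0) (.split 1 (.chk false 0) (.split 0 (.chk false 0) (.chk false 0)))))) (.part 9444732965593230029807 (.chk false 0) (.split 1 (.chk false 0) (.part 1028 (.chk false 0) (.split 1 (.chk false 0) (.part 8 (.chk false 0) (.split 0 (.chk false 0) (.chk false 0))))))))))
    (by decide +kernel)

theorem p0_2_4 : Ok par f2 (Box3.unit.l 0) (selB 1 (selB 0 C0 3978604921948861005981731534066372970168480032005836903585880173218952730987741063329153) 2403210419968472322720672069895211430318604141290766794746) :=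
  Ok.run hw hf2 ⟨277,25,25,1,10⟩ 59
    (.chk false 0)
    (by decide +kernel)

theorem p0_2_5 : Ok par f2 (Box3.unit.r 0) (selB 0 C0 3978604921948861005981731534066372970168480032005836903585880173218952730987741063329153) :=
  Ok.run hw hf2 ⟨434,25,25,1,10⟩ 59
    (.part 49432122289282408509330360691238829203174719251440713072511 (.chk false 0) (.split 1 (.chk false 0) (.part 262400 (.chk false 0) (.split 0 (.part 998054 (.chk false 0) (.split 1 (.chk false 0) (.split 0 (.part 195 (.chk false 0) (.split 1 (.chk false 0) (.part 1 (.chk false 0) (.split 0 (.chk false 0) (.chk false 0))))) (.chk false 0)))) (.chk false 0)))))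
    (by decide +kernel)

theorem p0_2_6 : Ok par f2 Box3.unit (selB 1 C0 3978604921948861005981731534066372970168480032005836903585880173218952730987741063329153) :=
  Ok.run hw hf2 ⟨239,25,25,1,10⟩ 59
    (.chk false 0)
    (by decide +kernel)

theorem p0_3_0 : Ok par f3 Box3.unit (selB 1 C0 254629011374587704351099159512031652910333626395188191749982373141544534850526552006852175) :=
  Ok.run hw hf3 ⟨239,25,25,1,10⟩ 59
    (.chk false 0)
    (by decide +kernel)

theorem p0_3_1 : Ok par f3 Box3.unit (selB 0 C0 254629011374587704351099159512031652910333626395188191749982373141544534850526552006852175) :=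
  Ok.run hw hf3 ⟨491,25,25,1,10⟩ 59
    (.split 0 (.part 98442 (.chk false 0) (.split 1 (.split 0 (.part 515 (.chk false 0) (.split 1 (.split 0 (.part 447 (.chk false 0) (.split 1 (.split 0 (.chk false 0) (.chk false 0)) (.chk false 0))) (.chk false 0)) (.chk false 0))) (.part 3583 (.chk false 0) (.split 1 (.split 0 (.split 1 (.split 0 (.split 1 (.split 0 (.chk false 0) (.chk false 0)) (.chk false 0)) (.chk false 0)) (.chk false 0)) (.chk false 0)) (.chk false 0)))) (.chk false 0))) (.part 65407 (.chk false 0) (.split 1 (.split 1 (.split 0 (.chk false 0) (.chk false 0)) (.chk false 0)) (.chk false 0))))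
    (by decide +kernel)

theorem p0_4_0 : Ok par f4 ((Box3.unit.r 1).l 0) (selB 0 (selB 0 C0 254505166232592450807757250415093707609719065876082088757182431352041576195557156483041151) 100694847) :=
  Ok.run hw hf4 ⟨412,25,25,1,10⟩ 59
    (.part 7676 (.chk false 0) (.split 1 (.part 3 (.chk false 0) (.split 0 (.chk false 0) (.chk false 0))) (.part 1 (.chk false 0) (.split 0 (.chk false 0) (.split 1 (.part 1 (.chk false 0) (.split 0 (.chk false 0) (.chk false 0))) (.chk false 0))))))
    (by decide +kernel)

theorem p0_4_1 : Ok par f4 ((Box3.unit.r 1).r 0) (selB 0 (selB 0 C0 254505166232592450807757250415093707609719065876082088757182431352041576195557156483041151) 100694847) :=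
  Ok.run hw hf4 ⟨495,25,25,1,10⟩ 59
    (.part 6912 (.chk false 0) (.split 1 (.part 479 (.chk false 0) (.split 0 (.chk false 0) (.chk false 0))) (.part 409 (.chk false 0) (.split 0 (.part 10 (.chk false 0) (.split 1 (.part 1 (.chk false 0) (.split 0 (.chk false 0) (.chk false 0))) (.chk false 0))) (.part 5 (.chk false 0) (.split 1 (.part 1 (.chk false 0) (.split 0 (.chk false 0) (.split 1 (.split 0 (.chk false 0) (.split 1 (.chk false 0) (.chk false 0))) (.chk false 0)))) (.chk false 0)))))))
    (by decide +kernel)

theorem p0_4_2 : Ok par f4 (Box3.unit.r 1) (selB 1 (selB 0 C0 254505166232592450807757250415093707609719065876082088757182431352041576195557156483041151) 100694847) :=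
  Ok.run hw hf4 ⟨278,25,25,1,10⟩ 59
    (.chk false 0)
    (by decide +kernel)

theorem p0_4_3 : Ok par f4 (Box3.unit.l 1) (selB 0 C0 254505166232592450807757250415093707609719065876082088757182431352041576195557156483041151) :=
  Ok.run hw hf4 ⟨426,25,25,1,10⟩ 59
    (.part 33529296 (.chk false 0) (.split 0 (.part 719 (.chk false 0) (.split 0 (.part 6 (.chk false 0) (.split 0 (.split 1 (.split 0 (.chk false 0) (.chk false 0)) (.chk false 0)) (.chk false 0))) (.chk false 0))) (.part 824 (.chk false 0) (.split 1 (.chk false 0) (.chk false 0)))))
    (by decide +kernel)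

theorem p0_4_4 : Ok par f4 Box3.unit (selB 1 C0 254505166232592450807757250415093707609719065876082088757182431352041576195557156483041151) :=
  Ok.run hw hf4 ⟨240,25,25,1,10⟩ 59
    (.chk false 0)
    (by decide +kernel)

theorem p0_5_0 : Ok par f5 Box3.unit C0 :=
  Ok.run hw hf5 ⟨315,25,25,1,10⟩ 59
    (.part 254629497041810760783555711051172270131433549208242031329517556169297662470417088272391935 (.chk false 0) (.split 1 (.chk false 0) (.split 0 (.chk false 0) (.chk false 0))))
    (by decide +kernel)

theorem p0_6_0 : Ok par f6 ((((Box3.unit.l 1).r 0).r 1).r 0) (selB 1 (selB 0 (selB 0 (selB 0 (selB 0 C0 3853564719287812774586670346692719568734056679328847711870258831892832518700785663) 39492265105081016707871855950051632283115106321099605364523400263) 98075717338117) 3221225713) 130553318) :=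
  Ok.run hw hf6 ⟨363,25,25,1,10⟩ 59
    (.chk false 0)
    (by decide +kernel)

theorem p0_6_1 : Ok par f6 ((((Box3.unit.l 1).r 0).r 1).r 0) (selB 0 (selB 0 (selB 0 (selB 0 (selB 0 C0 3853564719287812774586670346692719568734056679328847711870258831892832518700785663) 39492265105081016707871855950051632283115106321099605364523400263) 98075717338117) 3221225713) 130553318) :=
  Ok.run hw hf6 ⟨502,25,25,1,10⟩ 59
    (.split 1 (.part 7934 (.chk false 0) (.split 0 (.part 2 (.chk false 0) (.split 1 (.chk false 0) (.split 0 (.chk false 0) (.chk false 0)))) (.chk false 0))) (.part 1793 (.chk false 0) (.split 0 (.part 7 (.chk false 0) (.split 1 (.part 31 (.chk false 0) (.split 1 (.chk false 0) (.split 0 (.chk false 0) (.chk false 0)))) (.part 48 (.chk false 0) (.split 0 (.part 3 (.chk false 0) (.split 1 (.chk false 0) (.part 2 (.chk false 0) (.split 0 (.chk false 0) (.chk false 0))))) (.part 12 (.chk false 0) (.split 1 (.part 1 (.chk false 0) (.split 1 (.chk false 0) (.chk false 0))) (.chk false 0))))))) (.part 492 (.chk false 0) (.split 1 (.chk false 0) (.chk false 0))))))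
    (by decide +kernel)

theorem p0_6_2 : Ok par f6 ((((Box3.unit.l 1).r 0).r 1).l 0) (selB 0 (selB 0 (selB 0 (selB 0 C0 3853564719287812774586670346692719568734056679328847711870258831892832518700785663) 39492265105081016707871855950051632283115106321099605364523400263) 98075717338117) 3221225713) :=
  Ok.run hw hf6 ⟨425,25,25,1,10⟩ 59
    (.part 116391871 (.chk false 0) (.split 1 (.chk false 0) (.part 1 (.chk false 0) (.split 0 (.chk false 0) (.part 2 (.chk false 0) (.split 1 (.chk false 0) (.chk false 0)))))))
    (by decide +kernel)

theorem p0_6_3 : Ok par f6 (((Box3.unit.l 1).r 0).r 1) (selB 1 (selB 0 (selB 0 (selB 0 C0 3853564719287812774586670346692719568734056679328847711870258831892832518700785663) 39492265105081016707871855950051632283115106321099605364523400263) 98075717338117) 3221225713) :=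
  Ok.run hw hf6 ⟨334,25,25,1,10⟩ 59
    (.chk false 0)
    (by decide +kernel)

theorem p0_6_4 : Ok par f6 (((Box3.unit.l 1).r 0).l 1) (selB 0 (selB 0 (selB 0 C0 3853564719287812774586670346692719568734056679328847711870258831892832518700785663) 39492265105081016707871855950051632283115106321099605364523400263) 98075717338117) :=
  Ok.run hw hf6 ⟨375,25,25,1,10⟩ 59
    (.part 17179864959 (.chk false 0) (.split 0 (.chk false 0) (.chk false 0)))
    (by decide +kernel)

theorem p0_6_5 : Ok par f6 ((Box3.unit.l 1).r 0) (selB 1 (selB 0 (selB 0 C0 3853564719287812774586670346692719568734056679328847711870258831892832518700785663) 39492265105081016707871855950051632283115106321099605364523400263) 98075717338117) :=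
  Ok.run hw hf6 ⟨316,25,25,1,10⟩ 59
    (.chk false 0)
    (by decide +kernel)

theorem p0_6_6 : Ok par f6 ((Box3.unit.l 1).l 0) (selB 0 (selB 0 C0 3853564719287812774586670346692719568734056679328847711870258831892832518700785663) 39492265105081016707871855950051632283115106321099605364523400263) :=
  Ok.run hw hf6 ⟨363,25,25,1,10⟩ 59
    (.part 1125899906842619 (.chk false 0) (.split 0 (.chk false 0) (.split 1 (.chk false 0) (.chk false 0))))
    (by decide +kernel)


end Crest.Agent.R163.S1
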