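import Crest.Agent.R163.Q3.D.S1.S1
import Crest.Agent.R163.Q3.D.S1.H

set_option autoImplicit false
set_option maxRecDepth 100000
set_option linter.all false
set_option Elab.async false

namespace Crest.Agent.R163.S1

theorem p1_0_0 : Ok par f0 (Box3.unit.l 0) (selB 0 C1 53972343785818387707327611199271045588628275973597029267957644001274) :=
  Ok.run hw hf0 ⟨359,25,25,1,10⟩ 58
    (.part 65956197400575 (.chk false 0) (.split 0 (.part 253 (.chk false 0) (.split 0 (.chk false 0) (.chk false 0))) (.part 447 (.chk false 0) (.split 1 (.chk false 0) (.split 0 (.chk false 0) (.chk false 0))))))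
    (by decide +kernel)

theorem p1_0_1 : Ok par f0 (Box3.unit.r 0) (selB 0 C1 53972343785818387707327611199271045588628275973597029267957644001274) :=
  Ok.run hw hf0 ⟨446,25,25,1,10⟩ 58
    (.part 74989649756310 (.chk false 0) (.split 1 (.chk false 0) (.part 2048 (.chk false 0) (.split 0 (.part 7815167 (.chk false 0) (.split 1 (.chk false 0) (.split 0 (.part 11 (.chk false 0) (.split 1 (.chk false 0) (.split 0 (.chk false 0) (.chk false 0)))) (.chk false 0)))) (.part 16702463 (.chk false 0) (.split 1 (.chk false 0) (.split 0 (.part 3 (.chk false 0) (.split 1 (.chk false 0) (.split 0 (.chk false 0) (.chk false 0)))) (.chk false 0))))))))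
    (by decide +kernel)

theorem p1_0_2 : Ok par f0 Box3.unit (selB 1 C1 53972343785818387707327611199271045588628275973597029267957644001274) :=
  Ok.run hw hf0 ⟨238,25,25,1,10⟩ 58
    (.chk false 0)
    (by decide +kernel)

theorem p1_1_0 : Ok par f1 Box3.unit C1 :=
  Ok.run hw hf1 ⟨381,25,25,1,10⟩ 58
    (.part 107839786668602559178667703536155346204578313113652124791467707203583 (.chk false 0) (.split 0 (.part 29 (.chk false 0) (.split 0 (.chk false 0) (.chk false 0))) (.part 26 (.chk false 0) (.split 0 (.split 1 (.part 2 (.chk false 0) (.split 0 (.split 1 (.chk false 0) (.chk false 0)) (.chk false 0))) (.chk false 0)) (.chk false 0)))))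
    (by decide +kernel)

theorem p1_2_0 : Ok par f2 Box3.unit C1 :=
  Ok.run hw hf2 ⟨359,25,25,1,10⟩ 58
    (.part 107839786668599494184645772518852911039928744133754429527985861328901 (.chk false 0) (.split 0 (.part 7806604802461933187190650855445 (.chk false 0) (.split 0 (.chk false 0) (.part 302231450290078683764738 (.chk false 0) (.split 1 (.chk false 0) (.part 302383105 (.chk false 0) (.split 0 (.chk false 0) (.chk false 0))))))) (.chk false 0)))
    (by decide +kernel)

theorem p1_3_0 : Ok par f3 Box3.unit C1 :=
  Ok.run hw hf3 ⟨399,25,25,1,10⟩ 58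
    (.part 107838124893797539850349365516529759620584810277680830171788318081023 (.chk false 0) (.split 1 (.part 24 (.chk false 0) (.split 1 (.part 6 (.chk false 0) (.split 0 (.chk false 0) (.split 1 (.split 0 (.chk false 0) (.chk false 0)) (.chk false 0)))) (.part 1 (.chk false 0) (.split 0 (.chk false 0) (.part 1 (.chk false 0) (.split 1 (.chk false 0) (.chk false 0))))))) (.part 29 (.chk false 0) (.split 0 (.chk false 0) (.chk false 0)))))
    (by decide +kernel)

theorem p1_4_0 : Ok par f4 (((Box3.unit.r 1).l 1).l 1) (selB 0 (selB 0 (selB 0 C1 53919893478699139557375834194671365314202564671670959392147074187199) 4588886545313824771) 2495205299795787770) :=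
  Ok.run hw hf4 ⟨509,25,25,1,10⟩ 58
    (.part 11894 (.chk false 0) (.split 0 (.chk false 0) (.part 5 (.chk false 0) (.split 1 (.chk false 0) (.part 1 (.chk false 0) (.split 0 (.chk false 0) (.split 1 (.chk false 0) (.part 1 (.chk false 0) (.split 0 (.chk false 0) (.split 0 (.chk false 0) (.split 1 (.chk false 0) (.chk false 0))))))))))))
    (by decide +kernel)

theorem p1_4_1 : Ok par f4 (((Box3.unit.r 1).l 1).r 1) (selB 0 (selB 0 (selB 0 C1 53919893478699139557375834194671365314202564671670959392147074187199) 4588886545313824771) 2495205299795787770) :=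
  Ok.run hw hf4 ⟨441,25,25,1,10⟩ 58
    (.part 4364 (.chk false 0) (.split 0 (.part 474 (.chk false 0) (.split 0 (.part 13 (.chk false 0) (.split 1 (.chk false 0) (.split 0 (.chk false 0) (.chk false 0)))) (.chk false 0))) (.part 567 (.chk false 0) (.split 1 (.part 11 (.chk false 0) (.split 0 (.chk false 0) (.chk false 0))) (.part 7 (.chk false 0) (.split 0 (.split 1 (.chk false 0) (.chk false 0)) (.chk false 0)))))))
    (by decide +kernel)

theorem p1_4_2 : Ok par f4 ((Box3.unit.r 1).l 1) (selB 1 (selB 0 (selB 0 C1 53919893478699139557375834194671365314202564671670959392147074187199) 4588886545313824771) 2495205299795787770) :=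
  Ok.run hw hf4 ⟨295,25,25,1,10⟩ 58
    (.chk false 0)
    (by decide +kernel)

theorem p1_4_3 : Ok par f4 ((((Box3.unit.r 1).r 1).l 0).l 1) (selB 0 (selB 0 (selB 0 (selB 0 C1 53919893478699139557375834194671365314202564671670959392147074187199) 4588886545313824771) 1540019966331326730) 18691707568118) :=
  Ok.run hw hf4 ⟨525,25,25,1,10⟩ 58
    (.part 6291454 (.chk false 0) (.split 0 (.chk false 0) (.part 1 (.chk false 0) (.split 1 (.part 7 (.chk false 0) (.split 0 (.part 1 (.chk false 0) (.split 1 (.chk false 0) (.chk false 0))) (.part 2 (.chk false 0) (.split 1 (.chk false 0) (.split 0 (.chk false 0) (.split 1 (.chk false 0) (.chk false 0))))))) (.part 28 (.chk false 0) (.split 0 (.chk false 0) (.part 2 (.chk false 0) (.split 1 (.chk false 0) (.split 0 (.chk false 0) (.split 1 (.chk false 0) (.split 0 (.chk false 0) (.chk false 0))))))))))))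
    (by decide +kernel)

theorem p1_4_4 : Ok par f4 ((((Box3.unit.r 1).r 1).l 0).r 1) (selB 0 (selB 0 (selB 0 (selB 0 C1 53919893478699139557375834194671365314202564671670959392147074187199) 4588886545313824771) 1540019966331326730) 18691707568118) :=
  Ok.run hw hf4 ⟨504,25,25,1,10⟩ 58
    (.part 130351443 (.chk false 0) (.split 0 (.chk false 0) (.part 6 (.chk false 0) (.split 1 (.part 2015 (.chk false 0) (.split 0 (.chk false 0) (.part 6 (.chk false 0) (.split 1 (.chk false 0) (.chk false 0))))) (.part 5922 (.chk false 0) (.split 0 (.chk false 0) (.part 99 (.chk false 0) (.split 1 (.part 6 (.chk false 0) (.split 0 (.chk false 0) (.split 1 (.chk false 0) (.chk false 0)))) (.chk false 0)))))))))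
    (by decide +kernel)

theorem p1_4_5 : Ok par f4 (((Box3.unit.r 1).r 1).l 0) (selB 1 (selB 0 (selB 0 (selB 0 C1 53919893478699139557375834194671365314202564671670959392147074187199) 4588886545313824771) 1540019966331326730) 18691707568118) :=
  Ok.run hw hf4 ⟨344,25,25,1,10⟩ 58
    (.chk false 0)
    (by decide +kernel)

theorem p1_4_6 : Ok par f4 (((Box3.unit.r 1).r 1).r 0) (selB 0 (selB 0 (selB 0 C1 53919893478699139557375834194671365314202564671670959392147074187199) 4588886545313824771) 1540019966331326730) :=
  Ok.run hw hf4 ⟨484,25,25,1,10⟩ 58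
    (.part 89554368319607 (.chk false 0) (.split 1 (.part 3141631 (.chk false 0) (.split 0 (.part 1 (.chk false 0) (.split 1 (.part 7 (.chk false 0) (.split 1 (.chk false 0) (.chk false 0))) (.chk false 0))) (.chk false 0))) (.part 33270040 (.chk false 0) (.split 1 (.part 1663 (.chk false 0) (.split 0 (.split 0 (.part 2 (.chk false 0) (.split 1 (.chk false 0) (.chk false 0))) (.chk false 0)) (.chk false 0))) (.part 1953 (.chk false 0) (.split 0 (.part 7 (.chk false 0) (.split 0 (.part 2 (.chk false 0) (.split 1 (.chk false 0) (.split 0 (.chk false 0) (.chk false 0)))) (.chk false 0))) (.chk false 0)))))))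
    (by decide +kernel)

theorem p1_4_7 : Ok par f4 ((Box3.unit.r 1).r 1) (selB 1 (selB 0 (selB 0 C1 53919893478699139557375834194671365314202564671670959392147074187199) 4588886545313824771) 1540019966331326730) :=
  Ok.run hw hf4 ⟨306,25,25,1,10⟩ 58
    (.chk false 0)
    (by decide +kernel)

theorem p1_4_8 : Ok par f4 (Box3.unit.r 1) (selB 1 (selB 0 C1 53919893478699139557375834194671365314202564671670959392147074187199) 4588886545313824771) :=
  Ok.run hw hf4 ⟨277,25,25,1,10⟩ 58
    (.chk false 0)
    (by decide +kernel)

theorem p1_4_9 : Ok par f4 (Box3.unit.l 1) (selB 0 C1 53919893478699139557375834194671365314202564671670959392147074187199) :=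
  Ok.run hw hf4 ⟨425,25,25,1,10⟩ 58
    (.part 151111139972658216566780 (.chk false 0) (.split 1 (.part 4064 (.chk false 0) (.split 1 (.part 28 (.chk false 0) (.split 0 (.split 1 (.split 0 (.chk false 0) (.chk false 0)) (.chk false 0)) (.chk false 0))) (.part 15 (.chk false 0) (.split 1 (.chk false 0) (.split 0 (.chk false 0) (.split 1 (.chk false 0) (.chk false 0))))))) (.part 31 (.chk false 0) (.split 1 (.part 126 (.chk false 0) (.split 0 (.chk false 0) (.chk false 0))) (.part 103 (.chk false 0) (.split 0 (.chk false 0) (.split 1 (.chk false 0) (.chk false 0))))))))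
    (by decide +kernel)

theorem p1_4_10 : Ok par f4 Box3.unit (selB 1 C1 53919893478699139557375834194671365314202564671670959392147074187199) :=
  Ok.run hw hf4 ⟨239,25,25,1,10⟩ 58
    (.chk false 0)
    (by decide +kernel)

theorem p1_5_0 : Ok par f5 Box3.unit C1 :=
  Ok.run hw hf5 ⟨425,25,25,1,10⟩ 58
    (.part 53919928681088738759722467100675717617927663350250593391349547925503 (.chk false 0) (.split 1 (.chk false 0) (.split 0 (.part 137438920703 (.chk false 0) (.split 1 (.chk false 0) (.split 0 (.chk false 0) (.chk false 0)))) (.part 23009927004 (.chk false 0) (.split 1 (.chk false 0) (.part 64 (.chk false 0) (.split 0 (.chk false 0) (.part 4092 (.chk false 0) (.split 1 (.chk false 0) (.split 0 (.chk false 0) (.chk false 0)))))))))))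
    (by decide +kernel)

theorem p1_6_0 : Ok par f6 (((Box3.unit.l 1).l 0).l 1) (selB 0 (selB 0 (selB 0 C1 107839786668189033902241535068956467494057069205182974159278871445506) 633825300114168743944685387777) 130381357452612810915313078210755158867967) :=
  Ok.run hw hf6 ⟨503,25,25,1,10⟩ 58
    (.part 178926995079167 (.chk false 0) (.split 0 (.chk false 0) (.part 99396 (.chk false 0) (.split 1 (.part 95 (.chk false 0) (.split 0 (.chk false 0) (.part 33 (.chk false 0) (.split 1 (.part 23 (.chk false 0) (.split 0 (.chk false 0) (.split 1 (.chk false 0) (.chk false 0)))) (.part 26 (.chk false 0) (.split 0 (.chk false 0) (.part 1 (.chk false 0) (.split 1 (.split 0 (.chk false 0) (.chk false 0)) (.chk false 0))))))))) (.part 8047 (.chk false 0) (.split 0 (.chk false 0) (.chk false 0)))))))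
    (by decide +kernel)


end Crest.Agent.R163.S1
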