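import Crest.Agent.R163.Q3.D.S1.S1
import Crest.Agent.R163.Q3.D.S1.H

set_option autoImplicit false
set_option maxRecDepth 100000
set_option linter.all false
set_option Elab.async false

namespace Crest.Agent.R163.S1

theorem p1_6_1 : Ok par f6 (((Box3.unit.l 1).l 0).r 1) (selB 0 (selB 0 (selB 0 C1 107839786668189033902241535068956467494057069205182974159278871445506) 633825300114168743944685387777) 130381357452612810915313078210755158867967) :=
  Ok.run hw hf6 ⟨474,25,25,1,10⟩ 58
    (.part 36028796968042207 (.chk false 0) (.split 0 (.chk false 0) (.part 8 (.chk false 0) (.split 0 (.part 27 (.chk false 0) (.split 1 (.split 0 (.chk false 0) (.chk false 0)) (.split 0 (.split 1 (.split 0 (.chk false 0) (.chk false 0)) (.chk false 0)) (.chk false 0)))) (.part 4 (.chk false 0) (.split 1 (.part 3 (.chk false 0) (.split 1 (.chk false 0) (.chk false 0))) (.chk false 0)))))))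
    (by decide +kernel)

theorem p1_6_2 : Ok par f6 ((Box3.unit.l 1).l 0) (selB 1 (selB 0 (selB 0 C1 107839786668189033902241535068956467494057069205182974159278871445506) 633825300114168743944685387777) 130381357452612810915313078210755158867967) :=
  Ok.run hw hf6 ⟨315,25,25,1,10⟩ 58
    (.chk false 0)
    (by decide +kernel)

theorem p1_6_3 : Ok par f6 (((((Box3.unit.l 1).r 0).l 1).l 0).l 1) (selB 0 (selB 0 (selB 0 (selB 0 (selB 0 C1 107839786668189033902241535068956467494057069205182974159278871445506) 633825300114168743944685387777) 174214369811489856899408190229446907658241) 13011728441490259460564713471) 134610974) :=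
  Ok.run hw hf6 ⟨556,25,25,1,10⟩ 58
    (.part 389021695 (.chk false 0) (.split 0 (.split 1 (.part 11 (.chk false 0) (.split 0 (.chk false 0) (.chk false 0))) (.part 12 (.chk false 0) (.split 0 (.part 1 (.chk false 0) (.split 1 (.split 0 (.chk false 0) (.split 1 (.chk false 0) (.split 0 (.chk false 0) (.chk false 0)))) (.chk false 0))) (.part 2 (.chk false 0) (.split 1 (.split 0 (.chk false 0) (.split 1 (.split 0 (.chk false 0) (.chk false 0)) (.chk false 0))) (.chk false 0)))))) (.part 14 (.chk false 0) (.split 1 (.chk false 0) (.chk false 0)))))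
    (by decide +kernel)

theorem p1_6_4 : Ok par f6 (((((Box3.unit.l 1).r 0).l 1).l 0).r 1) (selB 0 (selB 0 (selB 0 (selB 0 (selB 0 C1 107839786668189033902241535068956467494057069205182974159278871445506) 633825300114168743944685387777) 174214369811489856899408190229446907658241) 13011728441490259460564713471) 134610974) :=
  Ok.run hw hf6 ⟨523,25,25,1,10⟩ 58
    (.part 536339041 (.chk false 0) (.split 0 (.part 147 (.chk false 0) (.split 1 (.chk false 0) (.part 36 (.chk false 0) (.split 0 (.chk false 0) (.part 4 (.chk false 0) (.split 1 (.chk false 0) (.part 3 (.chk false 0) (.split 0 (.split 1 (.chk false 0) (.chk false 0)) (.chk false 0))))))))) (.part 1019 (.chk false 0) (.split 1 (.chk false 0) (.chk false 0)))))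
    (by decide +kernel)

theorem p1_6_5 : Ok par f6 ((((Box3.unit.l 1).r 0).l 1).l 0) (selB 1 (selB 0 (selB 0 (selB 0 (selB 0 C1 107839786668189033902241535068956467494057069205182974159278871445506) 633825300114168743944685387777) 174214369811489856899408190229446907658241) 13011728441490259460564713471) 134610974) :=
  Ok.run hw hf6 ⟨362,25,25,1,10⟩ 58
    (.chk false 0)
    (by decide +kernel)

theorem p1_6_6 : Ok par f6 ((((Box3.unit.l 1).r 0).l 1).r 0) (selB 0 (selB 0 (selB 0 (selB 0 C1 107839786668189033902241535068956467494057069205182974159278871445506) 633825300114168743944685387777) 174214369811489856899408190229446907658241) 13011728441490259460564713471) :=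
  Ok.run hw hf6 ⟨400,25,25,1,10⟩ 58
    (.part 68719345142 (.chk false 0) (.split 1 (.chk false 0) (.chk false 0)))
    (by decide +kernel)

theorem p1_6_7 : Ok par f6 (((Box3.unit.l 1).r 0).l 1) (selB 1 (selB 0 (selB 0 (selB 0 C1 107839786668189033902241535068956467494057069205182974159278871445506) 633825300114168743944685387777) 174214369811489856899408190229446907658241) 13011728441490259460564713471) :=
  Ok.run hw hf6 ⟨344,25,25,1,10⟩ 58
    (.chk false 0)
    (by decide +kernel)

theorem p1_6_8 : Ok par f6 ((((((Box3.unit.l 1).r 0).r 1).l 0).r 1).l 0) (selB 0 (selB 0 (selB 0 (selB 0 (selB 0 (selB 0 C1 107839786668189033902241535068956467494057069205182974159278871445506) 633825300114168743944685387777) 174214369811489856899408190229446907658241) 2535301131980991897888245166080) 3377699720527880) 2251798291171329) :=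
  Ok.run hw hf6 ⟨489,25,25,1,10⟩ 58
    (.part 4108285 (.chk false 0) (.split 1 (.part 15 (.chk false 0) (.split 0 (.chk false 0) (.part 2 (.chk false 0) (.split 1 (.chk false 0) (.chk false 0))))) (.part 60 (.chk false 0) (.split 0 (.chk false 0) (.part 2 (.chk false 0) (.split 1 (.split 0 (.chk false 0) (.chk false 0)) (.split 0 (.chk false 0) (.chk false 0))))))))
    (by decide +kernel)

theorem p1_6_9 : Ok par f6 ((((((Box3.unit.l 1).r 0).r 1).l 0).r 1).r 0) (selB 0 (selB 0 (selB 0 (selB 0 (selB 0 (selB 0 C1 107839786668189033902241535068956467494057069205182974159278871445506) 633825300114168743944685387777) 174214369811489856899408190229446907658241) 2535301131980991897888245166080) 3377699720527880) 2251798291171329) :=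
  Ok.run hw hf6 ⟨497,25,25,1,10⟩ 58
    (.part 16383019 (.chk false 0) (.split 1 (.part 15 (.chk false 0) (.split 0 (.part 3 (.chk false 0) (.split 1 (.part 1 (.chk false 0) (.split 0 (.chk false 0) (.chk false 0))) (.chk false 0))) (.part 13 (.chk false 0) (.split 1 (.chk false 0) (.split 0 (.chk false 0) (.chk false 0)))))) (.part 208 (.chk false 0) (.split 0 (.part 16 (.chk false 0) (.split 1 (.chk false 0) (.part 2 (.chk false 0) (.split 0 (.chk false 0) (.chk false 0))))) (.chk false 0)))))
    (by decide +kernel)

theorem p1_6_10 : Ok par f6 (((((Box3.unit.l 1).r 0).r 1).l 0).r 1) (selB 1 (selB 0 (selB 0 (selB 0 (selB 0 (selB 0 C1 107839786668189033902241535068956467494057069205182974159278871445506) 633825300114168743944685387777) 174214369811489856899408190229446907658241) 2535301131980991897888245166080) 3377699720527880) 2251798291171329) :=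
  Ok.run hw hf6 ⟨371,25,25,1,10⟩ 58
    (.chk false 0)
    (by decide +kernel)

theorem p1_6_11 : Ok par f6 (((((Box3.unit.l 1).r 0).r 1).l 0).l 1) (selB 0 (selB 0 (selB 0 (selB 0 (selB 0 C1 107839786668189033902241535068956467494057069205182974159278871445506) 633825300114168743944685387777) 174214369811489856899408190229446907658241) 2535301131980991897888245166080) 3377699720527880) :=
  Ok.run hw hf6 ⟨470,25,25,1,10⟩ 58
    (.part 1179692514148351 (.chk false 0) (.split 0 (.part 101790 (.chk false 0) (.split 1 (.part 127 (.chk false 0) (.split 0 (.split 1 (.chk false 0) (.chk false 0)) (.chk false 0))) (.part 251 (.chk false 0) (.split 0 (.chk false 0) (.chk false 0))))) (.part 261059 (.chk false 0) (.split 1 (.part 15 (.chk false 0) (.split 0 (.chk false 0) (.chk false 0))) (.part 30 (.chk false 0) (.split 0 (.chk false 0) (.chk false 0)))))))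
    (by decide +kernel)

theorem p1_6_12 : Ok par f6 ((((Box3.unit.l 1).r 0).r 1).l 0) (selB 1 (selB 0 (selB 0 (selB 0 (selB 0 C1 107839786668189033902241535068956467494057069205182974159278871445506) 633825300114168743944685387777) 174214369811489856899408190229446907658241) 2535301131980991897888245166080) 3377699720527880) :=
  Ok.run hw hf6 ⟨350,25,25,1,10⟩ 58
    (.chk false 0)
    (by decide +kernel)

theorem p1_6_13 : Ok par f6 ((((Box3.unit.l 1).r 0).r 1).r 0) (selB 0 (selB 0 (selB 0 (selB 0 C1 107839786668189033902241535068956467494057069205182974159278871445506) 633825300114168743944685387777) 174214369811489856899408190229446907658241) 2535301131980991897888245166080) :=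
  Ok.run hw hf6 ⟨485,25,25,1,10⟩ 58
    (.part 18014398509474814 (.chk false 0) (.split 1 (.part 14 (.chk false 0) (.split 1 (.split 0 (.split 1 (.chk false 0) (.split 0 (.chk false 0) (.chk false 0))) (.chk false 0)) (.chk false 0))) (.chk false 0)))
    (by decide +kernel)

theorem p1_6_14 : Ok par f6 (((Box3.unit.l 1).r 0).r 1) (selB 1 (selB 0 (selB 0 (selB 0 C1 107839786668189033902241535068956467494057069205182974159278871445506) 633825300114168743944685387777) 174214369811489856899408190229446907658241) 2535301131980991897888245166080) :=
  Ok.run hw hf6 ⟨333,25,25,1,10⟩ 58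
    (.chk false 0)
    (by decide +kernel)

theorem p1_6_15 : Ok par f6 ((Box3.unit.l 1).r 0) (selB 1 (selB 0 (selB 0 C1 107839786668189033902241535068956467494057069205182974159278871445506) 633825300114168743944685387777) 174214369811489856899408190229446907658241) :=
  Ok.run hw hf6 ⟨315,25,25,1,10⟩ 58
    (.chk false 0)
    (by decide +kernel)

theorem p1_6_16 : Ok par f6 (Box3.unit.l 1) (selB 1 (selB 0 C1 107839786668189033902241535068956467494057069205182974159278871445506) 633825300114168743944685387777) :=
  Ok.run hw hf6 ⟨277,25,25,1,10⟩ 58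
    (.chk false 0)
    (by decide +kernel)

theorem p1_6_17 : Ok par f6 (Box3.unit.r 1) (selB 0 C1 107839786668189033902241535068956467494057069205182974159278871445506) :=
  Ok.run hw hf6 ⟨446,25,25,1,10⟩ 58
    (.part 22300745198530623117262744164609830619922436 (.chk false 0) (.split 0 (.chk false 0) (.part 1099511625878 (.chk false 0) (.split 1 (.part 1 (.chk false 0) (.split 0 (.part 1 (.chk false 0) (.split 1 (.split 0 (.chk false 0) (.part 30 (.chk false 0) (.split 1 (.split 0 (.chk false 0) (.chk false 0)) (.chk false 0)))) (.chk false 0))) (.chk false 0))) (.chk false 0)))))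
    (by decide +kernel)

theorem p1_6_18 : Ok par f6 Box3.unit (selB 1 C1 107839786668189033902241535068956467494057069205182974159278871445506) :=
  Ok.run hw hf6 ⟨239,25,25,1,10⟩ 58
    (.chk false 0)
    (by decide +kernel)

theorem p1_7_0 : Ok par f7 ((Box3.unit.l 0).r 1) (selB 1 (selB 0 (selB 0 C1 107839786668602557680925760057566521243043197763381406133501164552192) 621559599129123386023743568853013332039) 25387452759337677409484800) :=
  Ok.run hw hf7 ⟨315,25,25,1,10⟩ 58
    (.chk false 0)
    (by decide +kernel)

theorem p1_7_1 : Ok par f7 ((Box3.unit.l 0).r 1) (selB 0 (selB 0 (selB 0 C1 107839786668602557680925760057566521243043197763381406133501164552192) 621559599129123386023743568853013332039) 25387452759337677409484800) :=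
  Ok.run hw hf7 ⟨491,25,25,1,10⟩ 58
    (.split 0 (.part 23606064402702832500735 (.chk false 0) (.split 1 (.chk false 0) (.split 0 (.part 255 (.chk false 0) (.split 1 (.chk false 0) (.split 0 (.chk false 0) (.chk false 0)))) (.chk false 0)))) (.part 75557863725899825952775 (.chk false 0) (.split 1 (.chk false 0) (.part 65536 (.chk false 0) (.split 0 (.part 122879 (.chk false 0) (.split 1 (.chk false 0) (.split 0 (.split 1 (.chk false 0) (.split 0 (.chk false 0) (.chk false 0))) (.chk false 0)))) (.chk false 0))))))
    (by decide +kernel)

theorem p1_7_2 : Ok par f7 ((Box3.unit.l 0).l 1) (selB 0 (selB 0 C1 107839786668602557680925760057566521243043197763381406133501164552192) 621559599129123386023743568853013332039) :=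
  Ok.run hw hf7 ⟨315,25,25,1,10⟩ 58
    (.chk false 0)
    (by decide +kernel)

theorem p1_7_3 : Ok par f7 (Box3.unit.l 0) (selB 1 (selB 0 C1 107839786668602557680925760057566521243043197763381406133501164552192) 621559599129123386023743568853013332039) :=
  Ok.run hw hf7 ⟨277,25,25,1,10⟩ 58
    (.chk false 0)
    (by decide +kernel)

theorem p1_7_4 : Ok par f7 (Box3.unit.r 0) (selB 0 C1 107839786668602557680925760057566521243043197763381406133501164552192) :=
  Ok.run hw hf7 ⟨277,25,25,1,10⟩ 58
    (.chk false 0)
    (by decide +kernel)

theorem p1_7_5 : Ok par f7 Box3.unit (selB 1 C1 107839786668602557680925760057566521243043197763381406133501164552192) :=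
  Ok.run hw hf7 ⟨239,25,25,1,10⟩ 58
    (.chk false 0)
    (by decide +kernel)


end Crest.Agent.R163.S1
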